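import Mathlib

/-!
# The Prékopa–Leindler inequality with parameter `1/2`

Author: helper76.
-/

open MeasureTheory Set
open scoped ENNReal NNReal

namespace Crest.Agent.Lib.PL

/-- The set `{z | 2 z - b ∈ K}` has half the measure of `K`. -/
theorem two_mul_volume_half (K : Set ℝ) (b : ℝ) :
    2 * volume ((fun z : ℝ => 2 * z + -b) ⁻¹' K) = volume K := by
  have h1 : (fun z : ℝ => 2 * z + -b) ⁻¹' K = (2 * ·) ⁻¹' ((· + -b) ⁻¹' K) := rfl
  rw [h1, Real.volume_preimage_mul_left two_ne_zero, measure_preimage_add_right, ← mul_assoc]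
  have h2 : (2 : ℝ≥0∞) * ENNReal.ofReal |(2 : ℝ)⁻¹| = 1 := by
    rw [abs_of_pos (by norm_num), ENNReal.ofReal_inv_of_pos (by norm_num)]
    simp only [ENNReal.ofReal_ofNat]
    exact ENNReal.mul_inv_cancel (by norm_num) (by norm_num)
  rw [h2, one_mul]

/-- One-dimensional Brunn–Minkowski for compact sets. -/
theorem bm_compact {A B C : Set ℝ} (hA : IsCompact A) (hB : IsCompact B) (hAn : A.Nonempty)
    (hBn : B.Nonempty) (hC : ∀ x ∈ A, ∀ y ∈ B, (1 / 2 : ℝ) * (x + y) ∈ C) :
    volume A + volume B ≤ 2 * volume C := by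
  obtain ⟨a, haA, ha⟩ := hA.exists_isGreatest hAn
  obtain ⟨b, hbB, hb⟩ := hB.exists_isLeast hBn
  set S₁ := (fun z : ℝ => 2 * z + -b) ⁻¹' A with hS₁
  set S₂ := (fun z : ℝ => 2 * z + -a) ⁻¹' B with hS₂
  have hm₂ : MeasurableSet S₂ := hB.measurableSet.preimage (by fun_prop)
  have hdisj : AEDisjoint volume S₁ S₂ := by
    refine measure_mono_null (t := {(a + b) / 2}) ?_ (measure_singleton _)
    rintro z ⟨h1, h2⟩
    have h3 := ha h1
    have h4 := hb h2
    simp only at h3 h4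
    rw [mem_singleton_iff]
    linarith
  have hsub : S₁ ∪ S₂ ⊆ C := by
    rintro z (h | h)
    · have := hC _ h b hbB
      convert this using 1
      ring
    · have := hC a haA _ h
      convert this using 1
      ring
  rw [← two_mul_volume_half A b, ← two_mul_volume_half B a, ← mul_add,
    ← measure_union₀ hm₂.nullMeasurableSet hdisj]
  gcongr

/-- One-dimensional Brunn–Minkowski for measurable sets. -/
theorem bm_one {A B C : Set ℝ} (hA : MeasurableSet A) (hB : MeasurableSet B) (hAn : A.Nonempty)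
    (hBn : B.Nonempty) (hC : ∀ x ∈ A, ∀ y ∈ B, (1 / 2 : ℝ) * (x + y) ∈ C) :
    volume A + volume B ≤ 2 * volume C := by
  obtain ⟨a, ha⟩ := hAn
  obtain ⟨b, hb⟩ := hBn
  rw [hA.measure_eq_iSup_isCompact, hB.measure_eq_iSup_isCompact]
  simp_rw [iSup_and']
  refine ENNReal.biSup_add_biSup_le' ⟨∅, empty_subset _, isCompact_empty⟩
    ⟨∅, empty_subset _, isCompact_empty⟩ ?_
  rintro K ⟨hKA, hK⟩ L ⟨hLB, hL⟩
  calc volume K + volume L ≤ volume (insert a K) + volume (insert b L) := by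
        gcongr <;> exact subset_insert _ _
    _ ≤ 2 * volume C := by
        refine bm_compact (hK.insert a) (hL.insert b) (insert_nonempty _ _) (insert_nonempty _ _) ?_
        intro x hx y hy
        exact hC x (insert_subset ha hKA hx) y (insert_subset hb hLB hy)

/-- Layer cake formula for `ℝ≥0∞`-valued functions. -/
theorem layer_cake {α : Type*} [MeasurableSpace α] (μ : Measure α) [SFinite μ] {u : α → ℝ≥0∞}
    (hu : Measurable u) :
    ∫⁻ x, u x ∂μ = ∫⁻ t in Ioi (0 : ℝ), μ {x | ENNReal.ofReal t < u x} := by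
  have hS : MeasurableSet {p : α × ℝ | ENNReal.ofReal p.2 < u p.1} :=
    measurableSet_lt measurable_snd.ennreal_ofReal (hu.comp measurable_fst)
  have h1 := Measure.prod_apply (μ := μ) (ν := volume.restrict (Ioi (0 : ℝ))) hS
  have h2 := Measure.prod_apply_symm (μ := μ) (ν := volume.restrict (Ioi (0 : ℝ))) hS
  rw [h1] at h2
  refine Eq.trans (lintegral_congr fun x => ?_) h2
  rw [Measure.restrict_apply' measurableSet_Ioi]
  rcases eq_or_ne (u x) ∞ with h | h
  · have : (Prod.mk x ⁻¹' {p : α × ℝ | ENNReal.ofReal p.2 < u p.1}) ∩ Ioi 0 = Ioi 0 := by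
      ext t
      simp [h]
    rw [this, h, Real.volume_Ioi]
  · have : (Prod.mk x ⁻¹' {p : α × ℝ | ENNReal.ofReal p.2 < u p.1}) ∩ Ioi 0 =
        Ioo 0 (u x).toReal := by
      ext t
      simp only [mem_inter_iff, mem_preimage, mem_ofPred_eq, mem_Ioi, mem_Ioo]
      constructor
      · rintro ⟨h3, h4⟩
        exact ⟨h4, (ENNReal.ofReal_lt_iff_lt_toReal h4.le h).1 h3⟩
      · rintro ⟨h4, h3⟩
        exact ⟨(ENNReal.ofReal_lt_iff_lt_toReal h4.le h).2 h3, h4⟩
    rw [this, Real.volume_Ioo, sub_zero, ENNReal.ofReal_toReal h]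

theorem amgm {a b c : ℝ≥0∞} (h : a + b ≤ 2 * c) : a * b ≤ c ^ 2 := by
  rcases eq_or_ne c ∞ with rfl | hc
  · simp
  have hab : a + b ≠ ∞ := ne_top_of_le_ne_top (ENNReal.mul_ne_top (by norm_num) hc) h
  obtain ⟨ha, hb⟩ := ENNReal.add_ne_top.1 hab
  lift a to ℝ≥0 using ha
  lift b to ℝ≥0 using hb
  lift c to ℝ≥0 using hc
  have h' : (a : ℝ) + b ≤ 2 * c := by exact_mod_cast h
  have : (a : ℝ) * b ≤ (c : ℝ) ^ 2 := by
    nlinarith [sq_nonneg ((a : ℝ) - b), a.2, b.2, c.2]
  exact_mod_cast this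

/-- Normalised one-dimensional Prékopa–Leindler. -/
theorem pl_one_normalised {f g h : ℝ → ℝ≥0∞} (hf : Measurable f) (hg : Measurable g)
    (hh : Measurable h) (hf1 : ⨆ x, f x = 1) (hg1 : ⨆ x, g x = 1)
    (H : ∀ x y, f x * g y ≤ h ((1 / 2 : ℝ) * (x + y)) ^ 2) :
    (∫⁻ x, f x) * (∫⁻ x, g x) ≤ (∫⁻ x, h x) ^ 2 := by
  apply amgm
  rw [layer_cake volume hf, layer_cake volume hg, layer_cake volume hh,
    ← lintegral_const_mul' _ _ (by norm_num)]
  refine (le_lintegral_add _ _).trans (lintegral_mono fun t => ?_)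
  by_cases ht : ENNReal.ofReal t < 1
  · refine bm_one (measurableSet_lt measurable_const hf) (measurableSet_lt measurable_const hg)
      ?_ ?_ ?_
    · rw [← hf1, lt_iSup_iff] at ht
      exact ht
    · rw [← hg1, lt_iSup_iff] at ht
      exact ht
    · intro x hx y hy
      simp only [mem_ofPred_eq] at hx hy ⊢
      by_contra hcon
      rw [not_lt] at hcon
      have h1 : ENNReal.ofReal t * ENNReal.ofReal t < f x * g y := ENNReal.mul_lt_mul hx hy
      have h2 : h ((1 / 2 : ℝ) * (x + y)) ^ 2 ≤ ENNReal.ofReal t ^ 2 := by gcongr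
      rw [← sq] at h1
      exact absurd ((H x y).trans h2) (not_le.2 h1)
  · rw [not_lt] at ht
    have e1 : {x | ENNReal.ofReal t < f x} = ∅ := by
      ext x
      simp only [mem_ofPred_eq, mem_empty_iff_false, iff_false, not_lt]
      exact (le_iSup f x).trans (hf1.le.trans ht)
    have e2 : {x | ENNReal.ofReal t < g x} = ∅ := by
      ext x
      simp only [mem_ofPred_eq, mem_empty_iff_false, iff_false, not_lt]
      exact (le_iSup g x).trans (hg1.le.trans ht)
    simp [e1, e2]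

/-- One-dimensional Prékopa–Leindler for bounded functions. -/
theorem pl_one_bounded {f g h : ℝ → ℝ≥0∞} (hf : Measurable f) (hg : Measurable g)
    (hh : Measurable h) (hf1 : ⨆ x, f x ≠ ∞) (hg1 : ⨆ x, g x ≠ ∞)
    (H : ∀ x y, f x * g y ≤ h ((1 / 2 : ℝ) * (x + y)) ^ 2) :
    (∫⁻ x, f x) * (∫⁻ x, g x) ≤ (∫⁻ x, h x) ^ 2 := by
  by_cases hf0 : ⨆ x, f x = 0
  · have : ∀ x, f x = 0 := by simpa using hf0
    simp [this]
  by_cases hg0 : ⨆ x, g x = 0
  · have : ∀ x, g x = 0 := by simpa using hg0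
    simp [this]
  set F := ⨆ x, f x with hF
  set G := ⨆ x, g x with hG
  obtain ⟨S, hS0, hSt, hS⟩ : ∃ S : ℝ≥0∞, S ≠ ∞ ∧ S ≠ 0 ∧ S ^ 2 = F⁻¹ * G⁻¹ := by
    have h1 : F⁻¹ * G⁻¹ ≠ ∞ := ENNReal.mul_ne_top (by simpa using hf0) (by simpa using hg0)
    have h2 : F⁻¹ * G⁻¹ ≠ 0 := mul_ne_zero (by simpa using hf1) (by simpa using hg1)
    refine ⟨(F⁻¹ * G⁻¹) ^ (1 / 2 : ℝ), ENNReal.rpow_ne_top_of_nonneg (by norm_num) h1,
      (ENNReal.rpow_pos_of_nonneg (pos_iff_ne_zero.2 h2) (by norm_num)).ne', ?_⟩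
    rw [← ENNReal.rpow_natCast, ← ENNReal.rpow_mul]
    norm_num
  have key := pl_one_normalised (f := fun x => F⁻¹ * f x) (g := fun x => G⁻¹ * g x)
    (h := fun x => S * h x) (hf.const_mul _) (hg.const_mul _) (hh.const_mul _)
    (by rw [← ENNReal.mul_iSup]; exact ENNReal.inv_mul_cancel hf0 hf1)
    (by rw [← ENNReal.mul_iSup]; exact ENNReal.inv_mul_cancel hg0 hg1)
    (fun x y => by
      rw [mul_pow, hS, mul_mul_mul_comm]
      gcongr
      exact H x y)
  rw [lintegral_const_mul _ hf, lintegral_const_mul _ hg, lintegral_const_mul _ hh, mul_pow,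
    mul_mul_mul_comm, ← hS] at key
  exact (ENNReal.mul_le_mul_iff_right (pow_ne_zero 2 hSt) (ENNReal.pow_ne_top hS0)).1 key

theorem lintegral_eq_iSup_min {α : Type*} [MeasurableSpace α] (μ : Measure α) {f : α → ℝ≥0∞}
    (hf : Measurable f) : ∫⁻ x, f x ∂μ = ⨆ n : ℕ, ∫⁻ x, min (f x) n ∂μ := by
  rw [← lintegral_iSup (fun n => hf.min measurable_const)
    (fun m n hmn x => min_le_min_left _ (by exact_mod_cast hmn))]
  refine lintegral_congr fun x => ?_
  rw [← inf_iSup_eq, ENNReal.iSup_natCast]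
  simp

/-- The Prékopa–Leindler property of a measure on a real vector space. -/
def HasPL {E : Type*} [AddCommGroup E] [Module ℝ E] [MeasurableSpace E] (μ : Measure E) : Prop :=
  ∀ f g h : E → ℝ≥0∞, Measurable f → Measurable g → Measurable h →
    (∀ x y, f x * g y ≤ h ((1 / 2 : ℝ) • (x + y)) ^ 2) →
    (∫⁻ x, f x ∂μ) * (∫⁻ x, g x ∂μ) ≤ (∫⁻ x, h x ∂μ) ^ 2

theorem hasPL_real : HasPL (volume : Measure ℝ) := by
  intro f g h hf hg hh H
  rw [lintegral_eq_iSup_min volume hf, lintegral_eq_iSup_min volume hg, ENNReal.iSup_mul]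
  refine iSup_le fun n => ?_
  rw [ENNReal.mul_iSup]
  refine iSup_le fun m => ?_
  refine pl_one_bounded (hf.min measurable_const) (hg.min measurable_const) hh ?_ ?_ ?_
  · exact ne_top_of_le_ne_top (ENNReal.natCast_ne_top n) (iSup_le fun x => min_le_right _ _)
  · exact ne_top_of_le_ne_top (ENNReal.natCast_ne_top m) (iSup_le fun x => min_le_right _ _)
  · intro x y
    exact (mul_le_mul' (min_le_left _ _) (min_le_left _ _)).trans (H x y)

theorem HasPL.prod {E F : Type*} [AddCommGroup E] [Module ℝ E] [MeasurableSpace E]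
    [AddCommGroup F] [Module ℝ F] [MeasurableSpace F] {μ : Measure E} {ν : Measure F}
    [SFinite ν] (hμ : HasPL μ) (hν : HasPL ν) : HasPL (μ.prod ν) := by
  intro f g h hf hg hh H
  rw [lintegral_prod _ hf.aemeasurable, lintegral_prod _ hg.aemeasurable,
    lintegral_prod _ hh.aemeasurable]
  refine hμ _ _ _ hf.lintegral_prod_right' hg.lintegral_prod_right' hh.lintegral_prod_right' ?_
  intro x y
  exact hν _ _ _ (hf.comp measurable_prodMk_left) (hg.comp measurable_prodMk_left)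
    (hh.comp measurable_prodMk_left) fun u v => H (x, u) (y, v)

theorem HasPL.of_measurePreserving {E F : Type*} [AddCommGroup E] [Module ℝ E] [MeasurableSpace E]
    [AddCommGroup F] [Module ℝ F] [MeasurableSpace F] {μ : Measure E} {ν : Measure F}
    (hμ : HasPL μ) {e : E → F} (he : MeasurePreserving e μ ν)
    (hmid : ∀ x y, e ((1 / 2 : ℝ) • (x + y)) = (1 / 2 : ℝ) • (e x + e y)) : HasPL ν := by
  intro f g h hf hg hh H
  rw [← he.lintegral_comp hf, ← he.lintegral_comp hg, ← he.lintegral_comp hh]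
  refine hμ _ _ _ (hf.comp he.measurable) (hg.comp he.measurable) (hh.comp he.measurable) ?_
  intro x y
  simp only [hmid]
  exact H _ _

theorem hasPL_pi (n : ℕ) : HasPL (volume : Measure (Fin n → ℝ)) := by
  induction n with
  | zero =>
    intro f g h _ _ _ H
    have h1 : (volume : Measure (Fin 0 → ℝ)) univ = 1 := by
      rw [volume_pi, Measure.pi_univ]
      simp
    rw [lintegral_unique, lintegral_unique, lintegral_unique, h1, mul_one, mul_one, mul_one]
    convert H default default using 3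
  | succ n ih =>
    have h1 := (volume_preserving_piFinSuccAbove (fun _ : Fin (n + 1) => ℝ) 0).symm
    refine (hasPL_real.prod ih).of_measurePreserving h1 ?_
    intro x y
    apply (MeasurableEquiv.piFinSuccAbove (fun _ : Fin (n + 1) => ℝ) 0).injective
    rw [MeasurableEquiv.apply_symm_apply]
    ext <;> simp [MeasurableEquiv.piFinSuccAbove, Fin.tail]

/-- **Prékopa–Leindler** with parameter `1/2` on Euclidean space. -/
theorem prekopa_leindler_half (d : ℕ) (f g h : EuclideanSpace ℝ (Fin d) → ℝ≥0∞)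
    (hf : Measurable f) (hg : Measurable g) (hh : Measurable h)
    (H : ∀ x y, f x * g y ≤ h ((1 / 2 : ℝ) • (x + y)) ^ 2) :
    (∫⁻ x, f x) * (∫⁻ x, g x) ≤ (∫⁻ x, h x) ^ 2 :=
  (hasPL_pi d).of_measurePreserving (PiLp.volume_preserving_toLp (Fin d)) (fun _ _ => rfl)
    f g h hf hg hh H

end Crest.Agent.Lib.PL
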